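import Vale.Agent.P011.H373.Odd.RepT
import Vale.Agent.P011.H158.Psi.Conj

/-!
# The domain of the two-point functional

`Sy` is the set of the symmetric elements `t y y⋆`.  If the symmetric elements close to one in a
filter `l` are in `Sy`, then for central `α` close to the base point the elements `α g` and
`α g κ` are in the domain for all `g` in `l`.  The representation statements of `H373/Odd/RepT` are
put in the form `Rep` of `H158/Psi/Base`.  The characteristic is arbitrary.
-/

open Filter Topology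

set_option linter.unusedSectionVars false

namespace Vale.Agent.P011.H616

open Vale.Agent.P011.H373.Odd Vale.Agent.P011.H158.Psi

section alg

variable {K D : Type} [Field K] [StarRing K] [DivisionRing D] [StarRing D] [Algebra K D]

/-- Multiplication by a symmetric scalar. -/
theorem Sy.smul {t : K} (ht : star t = t) (t0 : t ≠ 0) {s : D} (h : Sy K s) : Sy K (algebraMap K D t * s) := by
  obtain ⟨u, y, hu, u0, y0, rfl⟩ := h
  exact ⟨t * u, y, by rw [star_mul', ht, hu], mul_ne_zero t0 u0, y0, by rw [map_mul, mul_assoc]⟩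

/-- Conjugation. -/
theorem Sy.conj {x s : D} (hx : x ≠ 0) (h : Sy K s) : Sy K (x * s * star x) := by
  obtain ⟨u, y, hu, u0, y0, rfl⟩ := h
  refine ⟨u, x * y, hu, u0, mul_ne_zero hx y0, ?_⟩
  rw [star_mul, ← mul_assoc x, ← Algebra.commutes u x]
  simp only [mul_assoc]

theorem Sy.star_eq (hst : ∀ c : K, star (algebraMap K D c) = algebraMap K D (star c)) {s : D}
    (h : Sy K s) : star s = s := by
  obtain ⟨u, y, hu, u0, y0, rfl⟩ := h
  rw [star_mul, hst, hu, star_mul, star_star, ← Algebra.commutes]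

end alg

section near

variable {K D : Type} [Field K] [StarRing K] [DivisionRing D] [StarRing D] [Algebra K D]

/-- If the symmetric elements close to one are in `Sy`, then so are the elements `γ g + (γ g)⋆`,
`g` close to one. -/
theorem sy_lin [TopologicalSpace D] [IsTopologicalRing D] [ContinuousStar D]
    (hst : ∀ c : K, star (algebraMap K D c) = algebraMap K D (star c))
    (hsy : ∀ᶠ z in 𝓝 (1 : D), star z = z → Sy K z) {γ : K} (hγ : γ + star γ ≠ 0) :
    ∀ᶠ g in 𝓝 (1 : D), Sy K (algebraMap K D γ * g + star (algebraMap K D γ * g)) := by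
  obtain ⟨u, hu⟩ : ∃ u, u = γ + star γ := ⟨_, rfl⟩
  have hus : star u = u := by rw [hu, star_add, star_star, add_comm]
  have hu0 : u ≠ 0 := by rw [hu]; exact hγ
  have huD : algebraMap K D u ≠ 0 := (map_ne_zero _).mpr hu0
  have hcont : Continuous fun g : D =>
      algebraMap K D u⁻¹ * (algebraMap K D γ * g + star (algebraMap K D γ * g)) := by
    have h1 : Continuous fun g : D => algebraMap K D γ * g := continuous_const.mul continuous_id
    exact continuous_const.mul (h1.add (continuous_star.comp h1))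
  have hval : algebraMap K D u⁻¹ * (algebraMap K D γ * 1 + star (algebraMap K D γ * 1)) = 1 := by
    rw [mul_one, hst, ← map_add, ← hu, ← map_mul, inv_mul_cancel₀ hu0, map_one]
  have h2 := (hcont.continuousAt (x := (1 : D))).eventually (p := fun z => star z = z → Sy K z)
    (by
      show ∀ᶠ z in 𝓝 (algebraMap K D u⁻¹ * (algebraMap K D γ * 1 +
        star (algebraMap K D γ * 1))), star z = z → Sy K z
      rw [hval]; exact hsy)
  filter_upwards [h2] with g hg
  have h3 : star (algebraMap K D u⁻¹ * (algebraMap K D γ * g + star (algebraMap K D γ * g))) =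
      algebraMap K D u⁻¹ * (algebraMap K D γ * g + star (algebraMap K D γ * g)) := by
    rw [star_mul, star_add, star_star, hst, star_inv₀, hus, ← Algebra.commutes, add_comm]
  have h4 := Sy.smul hus hu0 (hg h3)
  rwa [← mul_assoc, ← map_mul, mul_inv_cancel₀ hu0, map_one, one_mul] at h4

/-- The central elements close to the base point which are in the domain. -/
theorem exists_alpha [TopologicalSpace D] [IsTopologicalRing D] [T1Space D] (hnd : Nd K D)
    {κ : K} (hκ : star κ ≠ κ) {V : Set D} (hV : V ∈ 𝓝 (algebraMap K D (a0 κ))) :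
    ∃ α : K, algebraMap K D α ∈ V ∧ α + star α ≠ 0 ∧ α * κ + star (α * κ) ≠ 0 := by
  obtain ⟨e, he⟩ : ∃ e, e = a0 κ * κ := ⟨_, rfl⟩
  obtain ⟨c, hc⟩ : ∃ c, c = e * κ + star (e * κ) := ⟨_, rfl⟩
  have h1 : ContinuousAt (fun x : D => algebraMap K D (a0 κ) + x * algebraMap K D e) 0 :=
    (continuous_const.add (continuous_id.mul continuous_const)).continuousAt
  have h2 : ContinuousAt (fun x : D => 1 + x * algebraMap K D c) 0 :=
    (continuous_const.add (continuous_id.mul continuous_const)).continuousAt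
  have h3 : ∀ᶠ x in 𝓝 (0 : D), algebraMap K D (a0 κ) + x * algebraMap K D e ∈ V :=
    h1.eventually (p := fun y => y ∈ V) (by
      show ∀ᶠ y in 𝓝 (algebraMap K D (a0 κ) + 0 * algebraMap K D e), y ∈ V
      rw [zero_mul, add_zero]; exact hV)
  have h4 : ∀ᶠ x in 𝓝 (0 : D), 1 + x * algebraMap K D c ≠ 0 :=
    h2.eventually_ne (by rw [zero_mul, add_zero]; exact one_ne_zero)
  obtain ⟨l, hl, hl0, h5, h6⟩ := hnd _ (h3.and h4)
  have hone : e + star e = 1 := by rw [he]; exact a0_one hκ
  refine ⟨a0 κ + l * e, ?_, ?_, ?_⟩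
  · rw [map_add, map_mul]; exact h5
  · have : a0 κ + l * e + star (a0 κ + l * e) = l := by
      rw [star_add, a0_star, star_mul', hl]
      calc a0 κ + l * e + (-a0 κ + l * star e) = l * (e + star e) := by ring
        _ = l := by rw [hone, mul_one]
    rw [this]; exact hl0
  · have : (a0 κ + l * e) * κ + star ((a0 κ + l * e) * κ) = 1 + l * c := by
      rw [add_mul, star_add, hc, mul_assoc, star_mul' l, hl]
      have h7 := a0_one hκ
      calc a0 κ * κ + l * (e * κ) + (star (a0 κ * κ) + l * star (e * κ))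
          = (a0 κ * κ + star (a0 κ * κ)) + l * (e * κ + star (e * κ)) := by ring
        _ = 1 + l * (e * κ + star (e * κ)) := by rw [h7]
    rw [this]
    intro h0
    apply h6
    rw [← map_mul, ← map_one (algebraMap K D), ← map_add, h0, map_zero]

/-- **The domain.** -/
theorem dom [TopologicalSpace D] [IsTopologicalRing D] [T1Space D] (hnd : Nd K D) {κ : K}
    (hκ : star κ ≠ κ) {l : Filter D}
    (hl : ∀ γ : K, γ + star γ ≠ 0 →
      ∀ᶠ g in l, Sy K (algebraMap K D γ * g + star (algebraMap K D γ * g))) :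
    ∀ V ∈ 𝓝 (algebraMap K D (a0 κ)), ∃ α : K, algebraMap K D α ∈ V ∧ ∀ᶠ g in l,
      Sy K (algebraMap K D α * g + star (algebraMap K D α * g)) ∧
      Sy K (algebraMap K D α * g * algebraMap K D κ +
        star (algebraMap K D α * g * algebraMap K D κ)) := by
  intro V hV
  obtain ⟨α, h1, h2, h3⟩ := exists_alpha hnd hκ hV
  refine ⟨α, h1, ?_⟩
  filter_upwards [hl α h2, hl (α * κ) h3] with g h4 h5
  refine ⟨h4, ?_⟩
  have : algebraMap K D α * g * algebraMap K D κ = algebraMap K D (α * κ) * g := by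
    rw [mul_assoc, ← Algebra.commutes κ g, ← mul_assoc, ← map_mul]
  rw [this]
  exact h5

end near

section rep

variable {K D : Type} [Field K] [StarRing K] [DivisionRing D] [StarRing D] [Algebra K D]
  [TopologicalSpace D] [IsTopologicalRing D] [ContinuousStar D] [T2Space D] [ContinuousInv₀ D]
  (hst : ∀ c : K, star (algebraMap K D c) = algebraMap K D (star c))

include hst

/-- The representation near zero in the form of `H158/Psi/Base`. -/
theorem rep0 (hWU : WU D) (hsp : Spt K D) (hnd : Nd K D) : Rep K {s : D | Sy K s} 0 := by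
  intro U hU V hV
  obtain ⟨V', hV', h⟩ := rep_zero hst hWU hsp hnd hV hU
  rw [zero_mul]
  filter_upwards [hV'] with z hz hs
  obtain ⟨t, y, h1, h2, -, h4, h5, h6⟩ := h z hz hs
  exact ⟨t, h1, h2, h4, y, h5, by rw [h6, Algebra.smul_def]⟩

/-- The representation near one in the form of `H158/Psi/Base`. -/
theorem rep1 (hWU : WU D) (hsp : Spt K D) : Rep K {s : D | Sy K s} 1 := by
  intro U hU V hV
  obtain ⟨V', hV', h⟩ := rep_one hst hWU hsp (inter_mem hU hV)
  rw [one_mul, star_one]
  filter_upwards [hV'] with z hz hs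
  obtain ⟨t, y, h1, h2, -, h4, h5, h6⟩ := h z hz hs
  exact ⟨t, h1, h2, h4.1, y, h5.2, by rw [h6, Algebra.smul_def]⟩

/-- The representation near `x x⋆`. -/
theorem repx (hWU : WU D) (hsp : Spt K D) {x : D} (hx : x ≠ 0) : Rep K {s : D | Sy K s} x := by
  intro U hU V hV
  have hsx : star x ≠ 0 := star_ne_zero.mpr hx
  -- the neighbourhood of one
  have h1 : ∀ᶠ y in 𝓝 (1 : D), x * y ∈ V := by
    have hc : ContinuousAt (fun y : D => x * y) 1 :=
      (continuous_const.mul continuous_id).continuousAt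
    refine hc.eventually (p := fun z => z ∈ V) ?_
    show ∀ᶠ z in 𝓝 (x * 1), z ∈ V
    rw [mul_one]; exact hV
  have h2 := rep1 hst hWU hsp U hU _ h1
  rw [one_mul, star_one] at h2
  have h3 : ContinuousAt (fun z : D => x⁻¹ * z * star x⁻¹) (x * star x) :=
    ((continuous_const.mul continuous_id).mul continuous_const).continuousAt
  have h4 : x⁻¹ * (x * star x) * star x⁻¹ = 1 := by
    rw [← mul_assoc, inv_mul_cancel₀ hx, one_mul, star_inv₀, mul_inv_cancel₀ hsx]
  have h5 := h3.eventually (p := fun z => z ∈ {s : D | Sy K s} →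
    ∃ t : K, star t = t ∧ t ≠ 0 ∧ algebraMap K D t ∈ U ∧ ∃ y ∈ {y | x * y ∈ V},
      z = t • (y * star y)) (by simpa only [h4] using h2)
  filter_upwards [h5] with z hz hs
  obtain ⟨t, a1, a2, a3, y, a4, a5⟩ := hz (Sy.conj (inv_ne_zero hx) hs)
  refine ⟨t, a1, a2, a3, x * y, a4, ?_⟩
  have h6 : z = x * (x⁻¹ * z * star x⁻¹) * star x := by
    rw [star_inv₀]
    have : x * (x⁻¹ * z * (star x)⁻¹) * star x = (x * x⁻¹) * z * ((star x)⁻¹ * star x) := by
      simp only [mul_assoc]
    rw [this, mul_inv_cancel₀ hx, one_mul, inv_mul_cancel₀ hsx, mul_one]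
  rw [h6, a5, mul_smul_comm, smul_mul_assoc, star_mul]
  congr 1
  simp only [mul_assoc]

end rep

section hom

variable {K D E : Type} [Field K] [StarRing K] [DivisionRing D] [StarRing D] [Algebra K D]
  [StarModule K D] [CommGroup E] [TopologicalSpace D] [IsTopologicalDivisionRing D]
  [ContinuousStar D] [T1Space D] {κ : K} {c : D → E} {C C1 C2 : D → E}

/-- **Multiplicativity near one in the filter `l`** (close to one at `T` and at infinity). -/
theorem psi_mul_l (hκ : star κ ≠ κ) (hc1 : c 1 = 1)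
    (hK : ∀ u : K, u * star u = 1 → c (algebraMap K D u) = 1)
    (h : LC c (algebraMap K D κ) 1 C)
    (hex : ∀ᶠ r in 𝓝 (algebraMap K D κ), ∃ a, H436.OddN.At r 0 1 a)
    (hR0 : Rep K {s : D | Sy K s} 0) (hR1 : Rep K {s : D | Sy K s} 1) {l : Filter D}
    (hdom : ∀ V ∈ 𝓝 (algebraMap K D (a0 κ)), ∃ α : K, algebraMap K D α ∈ V ∧ ∀ᶠ g in l,
      Sy K (algebraMap K D α * g + star (algebraMap K D α * g)) ∧
      Sy K (algebraMap K D α * g * algebraMap K D κ +
        star (algebraMap K D α * g * algebraMap K D κ)))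
    (hl : l ≤ 𝓝 1) (hl1 : pure 1 ≤ l) (hmul : Tendsto (fun p : D × D => p.1 * p.2) (l ×ˢ l) l) :
    ∀ᶠ p in l ×ˢ l, psi κ C (p.1 * p.2) = psi κ C p.1 * psi κ C p.2 := by
  have h1 := psi_mul hκ hc1 hK h hex hR0 hR1
  rw [nhds_prod_eq, nhds_prod_eq] at h1
  obtain ⟨p1, q1, p2, q2, g1⟩ := eventually_prod_iff.mp h1
  obtain ⟨α, hα, hg⟩ := hdom {x | p1 x} q1
  have h2 : ∀ᶠ p in l ×ˢ l, p2 p := (Filter.prod_mono hl hl) q2
  have h3 := (tendsto_fst (f := l) (g := l)).eventually hg
  have h4 := hmul.eventually hg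
  have h5 := hl1 hg
  filter_upwards [h2, h3, h4] with p k2 k3 k4
  have k5 := g1 hα k2
  refine k5 ?_ k3.1 k4.1 ?_ k3.2
  · have := h5.1
    rwa [mul_one] at this
  · have := h5.2
    rwa [mul_one] at this

/-- **Invariance under conjugation**, for `g` and `x⋆ g x⋆⁻¹` in a member of `l`. -/
theorem psi_conj_l (hκ : star κ ≠ κ) (hc1 : c 1 = 1)
    (hK : ∀ u : K, u * star u = 1 → c (algebraMap K D u) = 1)
    (h : LC c (algebraMap K D κ) 1 C)
    (hex : ∀ᶠ r in 𝓝 (algebraMap K D κ), ∃ a, H436.OddN.At r 0 1 a)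
    (hR0 : Rep K {s : D | Sy K s} 0) (hR1 : Rep K {s : D | Sy K s} 1) {x0 : D} (hx0 : x0 ≠ 0)
    (hRx : Rep K {s : D | Sy K s} (star x0))
    (h1 : LC c (algebraMap K D κ) (star x0) C1)
    (h2 : LC c (algebraMap K D κ * (star x0 * x0)) (star x0) C2) {l : Filter D}
    (hdom : ∀ V ∈ 𝓝 (algebraMap K D (a0 κ)), ∃ α : K, algebraMap K D α ∈ V ∧ ∀ᶠ g in l,
      Sy K (algebraMap K D α * g + star (algebraMap K D α * g)) ∧
      Sy K (algebraMap K D α * g * algebraMap K D κ +
        star (algebraMap K D α * g * algebraMap K D κ))) (hl1 : pure 1 ≤ l) :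
    ∃ L ∈ l, ∀ᶠ p : D × D in 𝓝 (x0, 1), p.2 ∈ L → star p.1 * p.2 * (star p.1)⁻¹ ∈ L →
      psi κ C (star p.1 * p.2 * (star p.1)⁻¹) = psi κ C p.2 := by
  have h3 := psi_conj (S := {s : D | Sy K s}) hκ hc1 hK
    (fun x hx s hs => Sy.conj (K := K) hx hs) h hex hR0 hR1 hx0 hRx h1 h2
  rw [nhds_prod_eq, nhds_prod_eq] at h3
  obtain ⟨p1, q1, p2, q2, g1⟩ := eventually_prod_iff.mp h3
  obtain ⟨p3, q3, p4, q4, g2⟩ := eventually_prod_iff.mp q2
  obtain ⟨α, hα, hg⟩ := hdom {x | p3 x} q3
  have h5 := hl1 hg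
  refine ⟨_, hg, ?_⟩
  rw [nhds_prod_eq]
  filter_upwards [prod_mem_prod q1 q4] with p hp k1 k2
  refine @g1 p.1 hp.1 (algebraMap K D α, p.2) (g2 hα hp.2) α rfl k1.1 k2.1 ?_ k1.2
  have := h5.2
  rwa [mul_one] at this

end hom

end Vale.Agent.P011.H616
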