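import Vale.Agent.P011.Even.R1
import Vale.Agent.P011.Even.PlaneAlg
import Vale.Agent.P011.Even.RealSide

/-!
Symmetric elements of a division algebra of odd degree with an involution of the second kind over
a number field which are close to `x x*` at the real places that do not split: they are of the
form `t y y*` with `t` in the ground field.
-/

open NumberField IsDedekindDomain Polynomial Module Matrix

set_option linter.unusedSectionVars false

namespace Vale.Agent.P011.H616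

open Vale.Agent.P011.Even Vale.Agent.P011.Arith
open Vale.Agent.P011.RP (RData)

section sqrt

variable {k D : Type} [Field k] [NumberField k] [DivisionRing D] [Algebra k D] {N : ℕ}

/-- Approximate square roots of elements near one at a real place. -/
theorem sqrt_near (B : Module.Basis (Fin N) k D) (φ : k →+* ℝ) :
    ∃ η : ℝ, 0 < η ∧ ∀ δ : D, nm B (.inr φ) δ < η → ∀ m : ℕ,
      ∃ q : k[X], nm B (.inr φ) (1 - aeval δ q) ≤ (1 - (1 / 2) ^ m) * nm B (.inr φ) δ ∧
        nm B (.inr φ) (1 + δ - aeval δ q * aeval δ q) ≤ (1 / 2) ^ m * nm B (.inr φ) δ := by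
  obtain ⟨C, hC, hmul⟩ := nm_mul B (.inr φ : Pl k)
  refine ⟨1 / (4 * C), by positivity, fun δ hδ m => ?_⟩
  set a := nm B (.inr φ) δ with ha
  have ha0 : 0 ≤ a := nm_nonneg _ _ _
  have hCa : C * a ≤ 1 / 4 := by
    have h1 := mul_le_mul_of_nonneg_left hδ.le hC.le
    have h2 : C * (1 / (4 * C)) = 1 / 4 := by field_simp
    linarith
  induction m with
  | zero =>
    refine ⟨1, ?_, ?_⟩
    · rw [map_one, sub_self, nm_zero, pow_zero, sub_self, zero_mul]
    · rw [map_one, mul_one, add_sub_cancel_left, pow_zero, one_mul]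
  | succ m ih =>
    obtain ⟨q, h1, h2⟩ := ih
    refine ⟨q + Polynomial.C (1 / 2) * (1 + X - q * q), ?_, ?_⟩
    · set Q := aeval δ q with hQ
      have e1 : aeval δ (q + Polynomial.C (1 / 2 : k) * (1 + X - q * q)) =
          Q + (1 / 2 : k) • (1 + δ - Q * Q) := by
        rw [map_add, map_mul, aeval_C, map_sub, map_add, map_one, aeval_X, map_mul, ← hQ,
          ← Algebra.smul_def]
      rw [e1, ← sub_sub]
      refine (nm_sub_le _ _ _ _).trans ?_
      have h3 : nm B (.inr φ) ((1 / 2 : k) • (1 + δ - Q * Q)) ≤ 1 / 2 * ((1 / 2) ^ m * a) := by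
        rw [nm_smul, plAbv_inr, map_div₀, map_one, map_ofNat, abs_of_pos (by norm_num)]
        exact mul_le_mul_of_nonneg_left h2 (by norm_num)
      calc nm B (.inr φ) (1 - Q) + nm B (.inr φ) ((1 / 2 : k) • (1 + δ - Q * Q))
          ≤ (1 - (1 / 2) ^ m) * a + 1 / 2 * ((1 / 2) ^ m * a) := add_le_add h1 h3
        _ = (1 - (1 / 2) ^ (m + 1)) * a := by ring
    · set Q := aeval δ q with hQ
      have e1 : aeval δ (q + Polynomial.C (1 / 2 : k) * (1 + X - q * q)) =
          Q + (1 / 2 : k) • (1 + δ - Q * Q) := by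
        rw [map_add, map_mul, aeval_C, map_sub, map_add, map_one, aeval_X, map_mul, ← hQ,
          ← Algebra.smul_def]
      have hcomm : Q * δ = δ * Q := by
        have h3 : aeval δ (q * X) = aeval δ (X * q) := by rw [mul_comm]
        rwa [map_mul, map_mul, aeval_X] at h3
      set E := 1 + δ - Q * Q with hE
      have hQE : Q * E = E * Q := by
        rw [hE, mul_sub, sub_mul, mul_add, add_mul, mul_one, one_mul, hcomm, mul_assoc]
      clear_value E
      have e2 : 1 + δ - (Q + (1 / 2 : k) • E) * (Q + (1 / 2 : k) • E) =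
          (1 - Q) * E - (1 / 4 : k) • (E * E) := by
        have h4 : (1 : D) + δ = Q * Q + E := by rw [hE]; abel
        rw [h4, add_mul, mul_add, mul_add, mul_smul_comm, smul_mul_assoc, smul_mul_assoc,
          mul_smul_comm, smul_smul, ← hQE, sub_mul, one_mul]
        have h5 : (1 / 2 : k) • (Q * E) + (1 / 2 : k) • (Q * E) = Q * E := by
          rw [← add_smul]
          norm_num
        have h6 : (1 / 2 * (1 / 2) : k) = 1 / 4 := by norm_num
        rw [h6]
        calc Q * Q + E - (Q * Q + (1 / 2 : k) • (Q * E) + ((1 / 2 : k) • (Q * E) +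
              (1 / 4 : k) • (E * E)))
            = E - ((1 / 2 : k) • (Q * E) + (1 / 2 : k) • (Q * E)) - (1 / 4 : k) • (E * E) := by
              abel
          _ = _ := by rw [h5]
      rw [e1, e2]
      have hE0 : 0 ≤ nm B (.inr φ) E := nm_nonneg _ _ _
      have hle : nm B (.inr φ) E ≤ a := h2.trans (by
        have : ((1 : ℝ) / 2) ^ m ≤ 1 := pow_le_one₀ (by norm_num) (by norm_num)
        nlinarith)
      have h1' : nm B (.inr φ) (1 - Q) ≤ a := h1.trans (by
        have : (0 : ℝ) ≤ (1 / 2) ^ m := by positivity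
        nlinarith)
      refine (nm_sub_le _ _ _ _).trans ?_
      have h3 : nm B (.inr φ) ((1 - Q) * E) ≤ 1 / 4 * nm B (.inr φ) E := by
        refine (hmul _ _).trans (mul_le_mul_of_nonneg_right ?_ hE0)
        exact (mul_le_mul_of_nonneg_left h1' hC.le).trans hCa
      have h4 : nm B (.inr φ) ((1 / 4 : k) • (E * E)) ≤ 1 / 4 * (1 / 4 * nm B (.inr φ) E) := by
        rw [nm_smul, plAbv_inr, map_div₀, map_one, map_ofNat, abs_of_pos (by norm_num)]
        refine mul_le_mul_of_nonneg_left ?_ (by norm_num)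
        refine (hmul _ _).trans (mul_le_mul_of_nonneg_right ?_ hE0)
        exact (mul_le_mul_of_nonneg_left hle hC.le).trans hCa
      calc nm B (.inr φ) ((1 - Q) * E) + nm B (.inr φ) ((1 / 4 : k) • (E * E))
          ≤ 1 / 4 * nm B (.inr φ) E + 1 / 4 * (1 / 4 * nm B (.inr φ) E) := add_le_add h3 h4
        _ ≤ 1 / 2 * nm B (.inr φ) E := by linarith
        _ ≤ 1 / 2 * ((1 / 2) ^ m * a) := mul_le_mul_of_nonneg_left h2 (by norm_num)
        _ = (1 / 2) ^ (m + 1) * a := by ring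

end sqrt

section real

variable {k K D : Type} [Field k] [NumberField k] [Field K] [StarRing K]
    [DivisionRing D] [StarRing D] [Algebra k K] [Algebra k D] [Algebra K D] [IsScalarTower k K D]
    {d : kˣ} {s : K} {n N : ℕ}

theorem nearR_of_nm (B : Module.Basis (Fin N) k D) (φ : k →+* ℝ) {x y : D} {ε : ℝ}
    (h : nm B (.inr φ) (x - y) < ε) : NearR B φ ε x y := fun i => nm_lt_coord B (.inr φ) h i

theorem nm_of_nearR (B : Module.Basis (Fin N) k D) (φ : k →+* ℝ) {x y : D} {ε : ℝ}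
    (h : NearR B φ ε x y) : nm B (.inr φ) (x - y) ≤ N * ε :=
  nm_le_of_coord B (.inr φ) fun i => (h i).le

/-- A symmetric element near `x x*` at a real place is approximately isometric to a positive
element of the ground field. -/
theorem locR_near (hS : Setting k K D d s) (B : Module.Basis (Fin N) k D) {x : D} (hx : x ≠ 0)
    (φ : k →+* ℝ) : ∃ ε : ℝ, 0 < ε ∧ ∀ s₀ : D, star s₀ = s₀ → NearR B φ ε s₀ (x * star x) →
      ∀ ν : k, 0 < φ ν → LocR B φ (algebraMap k D ν) s₀ := by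
  obtain ⟨C, hC, hmul⟩ := nm_mul B (.inr φ : Pl k)
  obtain ⟨η, hη, hsq⟩ := sqrt_near B φ
  have hsx : star x ≠ 0 := star_ne_zero.mpr hx
  obtain ⟨e0, he0⟩ : ∃ e0, e0 = x * star x := ⟨_, rfl⟩
  have he00 : e0 ≠ 0 := by rw [he0]; exact mul_ne_zero hx hsx
  have hse : star e0 = e0 := by rw [he0, star_mul, star_star]
  have hCi : 0 < C * nm B (.inr φ) e0⁻¹ * N + 1 := by
    have := nm_nonneg B (.inr φ) e0⁻¹
    positivity
  refine ⟨η / (C * nm B (.inr φ) e0⁻¹ * N + 1), by positivity, fun s₀ hs₀ hnear ν hν ε hε => ?_⟩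
  obtain ⟨δ, hδ⟩ : ∃ δ, δ = e0⁻¹ * s₀ - 1 := ⟨_, rfl⟩
  have hδ1 : e0 * (1 + δ) = s₀ := by
    rw [hδ, add_sub_cancel, mul_inv_cancel_left₀ he00]
  have hδs : star δ = e0 * δ * e0⁻¹ := by
    rw [hδ, star_sub, star_mul, star_one, star_inv₀, hse, hs₀, mul_sub, sub_mul,
      mul_inv_cancel_left₀ he00, mul_one, mul_inv_cancel₀ he00]
  have hδη : nm B (.inr φ) δ < η := by
    have h1 : δ = e0⁻¹ * (s₀ - e0) := by rw [hδ, mul_sub, inv_mul_cancel₀ he00]
    rw [he0.symm] at hnear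
    have h2 := nm_of_nearR B φ hnear
    rw [h1]
    refine (hmul _ _).trans_lt ?_
    have h3 : 0 ≤ C * nm B (.inr φ) e0⁻¹ := mul_nonneg hC.le (nm_nonneg _ _ _)
    calc C * nm B (.inr φ) e0⁻¹ * nm B (.inr φ) (s₀ - e0)
        ≤ C * nm B (.inr φ) e0⁻¹ * (N * (η / (C * nm B (.inr φ) e0⁻¹ * N + 1))) :=
          mul_le_mul_of_nonneg_left h2 h3
      _ = (C * nm B (.inr φ) e0⁻¹ * N) * η / (C * nm B (.inr φ) e0⁻¹ * N + 1) := by ring
      _ < η := by
        rw [div_lt_iff₀ hCi]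
        nlinarith
  -- the scalar
  have hcts : Continuous fun r : ℝ => |r * r * φ ν - 1| * nm B (.inr φ) s₀ := by fun_prop
  have hr0 : |(Real.sqrt (φ ν))⁻¹ * (Real.sqrt (φ ν))⁻¹ * φ ν - 1| * nm B (.inr φ) s₀ < ε / 2 := by
    have h1 : (Real.sqrt (φ ν))⁻¹ * (Real.sqrt (φ ν))⁻¹ * φ ν = 1 := by
      rw [← mul_inv, Real.mul_self_sqrt hν.le, inv_mul_cancel₀ hν.ne']
    rw [h1, sub_self, abs_zero, zero_mul]
    positivity
  obtain ⟨r, hr⟩ := Rat.denseRange_cast.exists_mem_open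
    (isOpen_lt hcts (continuous_const : Continuous fun _ : ℝ => ε / 2)) ⟨_, hr0⟩
  have hr' : |(r : ℝ) * r * φ ν - 1| * nm B (.inr φ) s₀ < ε / 2 := hr
  -- the square root
  obtain ⟨M, hM⟩ : ∃ M : ℝ, M = |(r : ℝ) * r * φ ν| * (C * nm B (.inr φ) e0) *
      nm B (.inr φ) δ := ⟨_, rfl⟩
  have hM0 : 0 ≤ M := by
    rw [hM]
    exact mul_nonneg (mul_nonneg (abs_nonneg _) (mul_nonneg hC.le (nm_nonneg _ _ _)))
      (nm_nonneg _ _ _)
  obtain ⟨m, hm⟩ := exists_pow_lt_of_lt_one (show 0 < ε / 2 / (M + 1) by positivity)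
    (show (1 / 2 : ℝ) < 1 by norm_num)
  obtain ⟨q, -, hq⟩ := hsq δ hδη m
  set Q := aeval δ q with hQ
  refine ⟨(r : k) • (star x * Q), nearR_of_nm B φ ?_⟩
  have hstarQ : star Q = e0 * Q * e0⁻¹ := star_aeval' hS he00 hδs q
  have hst : star ((r : k) • (star x * Q)) = (r : k) • (star Q * x) := by
    rw [Algebra.smul_def, star_mul, star_mul, star_star, star_algk hS, ← Algebra.commutes,
      ← Algebra.smul_def]
  have e1 : star ((r : k) • (star x * Q)) * algebraMap k D ν * ((r : k) • (star x * Q)) =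
      ((r : k) * r * ν) • (e0 * (Q * Q)) := by
    rw [hst, hstarQ, smul_mul_assoc, smul_mul_smul_comm, ← Algebra.commutes,
      ← Algebra.smul_def, smul_mul_assoc, smul_smul]
    congr 1
    calc e0 * Q * e0⁻¹ * x * (star x * Q) = e0 * Q * (e0⁻¹ * (x * star x)) * Q := by
          simp only [mul_assoc]
      _ = e0 * (Q * Q) := by rw [← he0, inv_mul_cancel₀ he00, mul_one, mul_assoc]
  have e2 : ((r : k) * r * ν) • (e0 * (Q * Q)) - s₀ =
      ((r : k) * r * ν - 1) • s₀ - ((r : k) * r * ν) • (e0 * (1 + δ - Q * Q)) := by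
    rw [mul_sub, hδ1, sub_smul, one_smul, smul_sub]
    abel
  rw [e1, e2]
  refine (nm_sub_le _ _ _ _).trans_lt ?_
  rw [nm_smul, nm_smul, plAbv_inr, plAbv_inr, map_sub, map_one, map_mul, map_mul, map_ratCast]
  have h1 : |(r : ℝ) * r * φ ν| * nm B (.inr φ) (e0 * (1 + δ - Q * Q)) < ε / 2 := by
    calc |(r : ℝ) * r * φ ν| * nm B (.inr φ) (e0 * (1 + δ - Q * Q))
        ≤ |(r : ℝ) * r * φ ν| * (C * nm B (.inr φ) e0 * ((1 / 2) ^ m * nm B (.inr φ) δ)) := by
          refine mul_le_mul_of_nonneg_left ((hmul _ _).trans ?_) (abs_nonneg _)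
          exact mul_le_mul_of_nonneg_left hq (mul_nonneg hC.le (nm_nonneg _ _ _))
      _ = M * (1 / 2) ^ m := by rw [hM]; ring
      _ ≤ M * (ε / 2 / (M + 1)) := mul_le_mul_of_nonneg_left hm.le hM0
      _ < ε / 2 := by
        rw [mul_div_assoc', div_lt_iff₀ (by positivity)]
        nlinarith
  linarith

/-- The reduced norm of an element near `x x*` is positive. -/
theorem pos_near (B : Module.Basis (Fin N) k D)
    {φ : k →+* ℝ} (R : RData K D n)
    (hR : ∀ x : k, R.s (algebraMap k K x) = (φ x : ℂ)) {x : D} (hx : x ≠ 0) :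
    ∃ ε : ℝ, 0 < ε ∧ ∀ s₀ : D, NearR B φ ε s₀ (x * star x) → 0 < (R.f s₀).det.re := by
  have hdet : IsUnit R.A.det := (Matrix.isUnit_iff_isUnit_det _).mp R.unit
  have h0 : 0 < (R.f (x * star x)).det.re := by
    have h1 : R.f (star x) = R.A * (R.f x)ᴴ * R.A⁻¹ := by
      rw [← R.star_f, mul_assoc, Matrix.mul_nonsing_inv _ hdet, mul_one]
    rw [map_mul, Matrix.det_mul, h1, Matrix.det_mul, Matrix.det_mul, Matrix.det_conjTranspose]
    have h2 : R.A.det * (star (R.f x).det) * R.A⁻¹.det = star (R.f x).det := by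
      have h3 : R.A.det * R.A⁻¹.det = 1 := by
        rw [← Matrix.det_mul, Matrix.mul_nonsing_inv _ hdet, Matrix.det_one]
      calc _ = star (R.f x).det * (R.A.det * R.A⁻¹.det) := by ring
        _ = _ := by rw [h3, mul_one]
    rw [h2, Complex.star_def, Complex.mul_conj, Complex.ofReal_re]
    refine Complex.normSq_pos.mpr ?_
    have h4 := (f_unit R hx)
    exact ((Matrix.isUnit_iff_isUnit_det _).mp h4).ne_zero
  have hcont : Continuous fun c : Fin N → ℝ => (Lam B R c).det.re := by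
    have h1 : Continuous (Lam B R) := LinearMap.continuous_of_finiteDimensional _
    exact Complex.continuous_re.comp h1.matrix_det
  have hopen := isOpen_lt (continuous_const : Continuous fun _ : Fin N → ℝ => (0 : ℝ)) hcont
  obtain ⟨ε, hε, hball⟩ := Metric.isOpen_iff.mp hopen (rc B φ (x * star x)) (by
    change 0 < (Lam B R (rc B φ (x * star x))).det.re
    rw [Lam_rc B R hR]
    exact h0)
  refine ⟨ε, hε, fun s₀ h => ?_⟩
  have h1 : rc B φ s₀ ∈ Metric.ball (rc B φ (x * star x)) ε := by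
    rw [Metric.mem_ball, dist_pi_lt_iff hε]
    intro i
    have h2 := h i
    rw [map_sub, Finsupp.sub_apply, map_sub] at h2
    exact h2
  have h2 := hball h1
  change 0 < (Lam B R (rc B φ s₀)).det.re at h2
  rwa [Lam_rc B R hR] at h2

end real

section main

variable {k K D : Type} [Field k] [NumberField k] [Field K] [StarRing K]
    [DivisionRing D] [StarRing D] [Algebra k K] [Algebra k D] [Algebra K D] [IsScalarTower k K D]
    {d : kˣ} {s : K} {n N : ℕ}

/-- **Symmetric elements of odd degree** which are close to `x x*` at the real places that do not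
split are of the form `t y y*`. -/
theorem sy_nf (hS : Setting k K D d s) (hn : Odd n) (hdeg : finrank K D = n ^ 2)
    (B : Module.Basis (Fin N) k D) {x : D} (hx : x ≠ 0) :
    ∃ ε : ℝ, 0 < ε ∧ ∀ s₀ : D, star s₀ = s₀ → s₀ ≠ 0 →
      (∀ φ : k →+* ℝ, φ d < 0 → NearR B φ ε s₀ (x * star x)) →
      ∃ (t : k) (y : D), t ≠ 0 ∧ y ≠ 0 ∧ s₀ = algebraMap k D t * (y * star y) := by
  have := hS.fin
  have := hS.cen
  have hfk := hS.fin_k
  have _ := numberField_of_setting hS
  have hn0 : 0 < n := hn.pos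
  have hR : ∀ φ : k →+* ℝ, ∃ ε : ℝ, 0 < ε ∧ (φ d < 0 → ∀ s₀ : D, star s₀ = s₀ →
      NearR B φ ε s₀ (x * star x) → (∃ R : RData K D n,
        (∀ a, R.s (algebraMap k K a) = ((φ a : ℝ) : ℂ)) ∧ 0 < (R.f s₀).det.re) ∧
      ∀ ν : k, 0 < φ ν → LocR B φ (algebraMap k D ν) s₀) := by
    intro φ
    by_cases hφ : φ d < 0
    · obtain ⟨R, hR⟩ := exists_rdata_of hS hn0 hdeg hφ
      obtain ⟨ε1, h1, h2⟩ := locR_near hS B hx φ
      obtain ⟨ε2, h3, h4⟩ := pos_near B R hR hx
      refine ⟨min ε1 ε2, lt_min h1 h3, fun _ s₀ hs hnear => ⟨⟨R, hR, h4 s₀ fun i =>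
        (hnear i).trans_le (min_le_right _ _)⟩, h2 s₀ hs fun i =>
        (hnear i).trans_le (min_le_left _ _)⟩⟩
    · exact ⟨1, one_pos, fun h => absurd h hφ⟩
  choose ε hε hεR using hR
  obtain ⟨e, he, hele⟩ : ∃ e : ℝ, 0 < e ∧ ∀ φ, e ≤ ε φ := by
    have hfin : Finite (k →+* ℝ) := inferInstance
    have _ := Fintype.ofFinite (k →+* ℝ)
    by_cases hne : Nonempty (k →+* ℝ)
    · obtain ⟨φ0, -, h0⟩ := Finset.exists_min_image (Finset.univ : Finset (k →+* ℝ)) ε
        ⟨Classical.choice hne, Finset.mem_univ _⟩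
      exact ⟨ε φ0, hε φ0, fun φ => h0 φ (Finset.mem_univ _)⟩
    · exact ⟨1, one_pos, fun φ => absurd ⟨φ⟩ hne⟩
  refine ⟨e, he, fun s₀ hs₀ hs₀0 hnear => ?_⟩
  obtain ⟨f⟩ := Vale.Agent.P011S.exists_split (K := K) (D := D) hdeg (AlgebraicClosure K)
  obtain ⟨ν0, hν0⟩ := exists_nrd hn0 hdeg f s₀
  have hst := star_nrd hn0 hdeg hS.star_alg f hs₀ hν0
  obtain ⟨ν, rfl⟩ := (hS.fix ν0).mp hst
  have hf0 : (f s₀).det ≠ 0 := by
    have h1 : IsUnit (f s₀) := (IsUnit.mk0 s₀ hs₀0).map f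
    exact ((Matrix.isUnit_iff_isUnit_det _).mp h1).ne_zero
  have hν : ν ≠ 0 := by
    rintro rfl
    exact hf0 (by rw [hν0, map_zero, map_zero])
  have hνD : algebraMap k D ν ≠ 0 := (_root_.map_ne_zero _).mpr hν
  have hc : (f (algebraMap k D ν)).det = algebraMap K (AlgebraicClosure K)
      (algebraMap k K ((Units.mk0 ν hν ^ n : kˣ) : k)) := by
    rw [IsScalarTower.algebraMap_apply k K D, AlgHom.commutes, Matrix.algebraMap_eq_diagonal,
      Matrix.det_diagonal]
    simp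
  have hfin : ∀ v : HeightOneSpectrum (𝓞 k), d ∉ LS (v.valuation k) →
      LocF B v (algebraMap k D ν) s₀ := by
    intro v hv
    refine loc_fin hS B f hdeg v hv (star_algk hS ν) hs₀ hc
      (ν' := Units.mk0 ν hν) (by rw [hν0, Units.val_mk0]) (Subgroup.mem_sup_left ?_)
    obtain ⟨m, hm⟩ := hn
    have h1 : (Units.mk0 ν hν) ^ n * Units.mk0 ν hν = (Units.mk0 ν hν ^ (m + 1)) ^ 2 := by
      rw [← pow_succ, ← pow_mul, hm]
      congr 1
      ring
    rw [h1]
    exact ⟨((Units.mk0 ν hν ^ (m + 1) : kˣ) : k), 0, by simp⟩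
  have hreal : ∀ φ : k →+* ℝ, φ d < 0 → LocR B φ (algebraMap k D ν) s₀ := by
    intro φ hφ
    obtain ⟨⟨R, hR, hpos⟩, h2⟩ := hεR φ hφ s₀ hs₀ fun i => (hnear φ hφ i).trans_le (hele φ)
    refine h2 ν ?_
    let _ : Algebra K ℂ := R.s.toAlgebra
    have hg0 : ∀ c : K, R.f (algebraMap K D c) =
        algebraMap K (Matrix (Fin n) (Fin n) ℂ) c := fun c => R.hf c
    let g : D →ₐ[K] Matrix (Fin n) (Fin n) ℂ := { R.f with commutes' := hg0 }
    have h3 : (g s₀).det = algebraMap K ℂ (algebraMap k K ν) := det_compare hn0 hdeg f g s₀ hν0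
    have h4 : (R.f s₀).det = ((φ ν : ℝ) : ℂ) := h3.trans (hR ν)
    rw [h4, Complex.ofReal_re] at hpos
    exact hpos
  obtain ⟨t, ht0, ht⟩ := global_rank_one hS B (star_algk hS ν) hs₀ hνD hs₀0 hfin hreal
  refine ⟨ν, star t, hν, star_ne_zero.mpr ht0, ?_⟩
  rw [star_star, ht, ← Algebra.commutes, mul_assoc]

/-- The same with the scalar in `K`. -/
theorem sy_nf' (hS : Setting k K D d s) (hn : Odd n) (hdeg : finrank K D = n ^ 2)
    (B : Module.Basis (Fin N) k D) {x : D} (hx : x ≠ 0) :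
    ∃ ε : ℝ, 0 < ε ∧ ∀ s₀ : D, star s₀ = s₀ → s₀ ≠ 0 →
      (∀ φ : k →+* ℝ, φ d < 0 → NearR B φ ε s₀ (x * star x)) →
      ∃ (t : K) (y : D), star t = t ∧ t ≠ 0 ∧ y ≠ 0 ∧
        s₀ = algebraMap K D t * (y * star y) := by
  obtain ⟨ε, hε, h⟩ := sy_nf hS hn hdeg B hx
  refine ⟨ε, hε, fun s₀ h1 h2 h3 => ?_⟩
  obtain ⟨t, y, ht, hy, h4⟩ := h s₀ h1 h2 h3
  exact ⟨algebraMap k K t, y, (hS.fix _).mpr ⟨t, rfl⟩, (_root_.map_ne_zero _).mpr ht, hy, by
    rw [h4, IsScalarTower.algebraMap_apply k K D]⟩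

end main

end Vale.Agent.P011.H616
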