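import Vale.Agent.P011.H616.Odd.Dom
import Vale.Agent.P011.H616.Odd.SyNF
import Vale.Agent.P011.H775.Odd.TopNF

/-!
# Number fields: the domain of the two-point functional

`T` is a finite nonempty set of finite places, `T'` a finite set which contains the real places of
`k` that do not split in `K`.  The domain is the set of the elements `z` with `z + z⋆` in `Sy`.
-/

open Filter Topology Module NumberField IsDedekindDomain

set_option linter.style.haveILetI false
set_option linter.unusedSectionVars false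

namespace Vale.Agent.P011.H616

open Vale.Agent.P011.Arith Vale.Agent.P011.Even Vale.Agent.P011.Two Vale.Agent.P011.One
  Vale.Agent.P011.H373.Odd Vale.Agent.P011.H775.Top Vale.Agent.P011.H158.Psi

section scal

variable {k : Type} [Field k] [NumberField k]

/-- A scalar which is small at finitely many finite places and large at the real places. -/
theorem exists_big (T : Finset (Pl k)) [Nonempty T]
    (hT : ∀ p ∈ T, ∃ v : HeightOneSpectrum (𝓞 k), p = Sum.inl v) :
    ∃ M : k, M ≠ 0 ∧ (∀ p ∈ T, plAbv p M < 1) ∧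
      ∀ φ : k →+* ℝ, 1 < plAbv (Sum.inr φ) M := by
  classical
  obtain ⟨t, ht0, ht⟩ := exists_small_nf T
  have hpos : ∀ p : Pl k, 0 < (if p ∈ T then min (plAbv p t) (1 - plAbv p t) else 1 : ℝ) := by
    intro p
    by_cases hp : p ∈ T
    · rw [if_pos hp]
      have h1 : plAbv p t < 1 := ht ⟨p, hp⟩
      exact lt_min ((plAbv p).pos ht0) (by linarith)
    · rw [if_neg hp]; exact one_pos
  obtain ⟨M, hM⟩ := approx ((T : Set (Pl k)) ∪ Set.range (Sum.inr : (k →+* ℝ) → Pl k))
    (T.finite_toSet.union (Set.finite_range _))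
    (fun p => match p with | .inl _ => t | .inr _ => 2)
    (fun p => if p ∈ T then min (plAbv p t) (1 - plAbv p t) else 1) hpos
  have h1 : ∀ p ∈ T, plAbv p (M - t) < min (plAbv p t) (1 - plAbv p t) := by
    intro p hp
    have h := hM p (Or.inl hp)
    rw [if_pos hp] at h
    obtain ⟨v, rfl⟩ := hT p hp
    exact h
  refine ⟨M, ?_, fun p hp => ?_, fun φ => ?_⟩
  · obtain ⟨p⟩ := ‹Nonempty T›
    rintro rfl
    have h := (h1 p.1 p.2).trans_le (min_le_left _ _)
    rw [zero_sub, AbsoluteValue.map_neg] at h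
    exact lt_irrefl _ h
  · have h := (h1 p hp).trans_le (min_le_right _ _)
    have h2 : plAbv p M ≤ plAbv p (M - t) + plAbv p t := by
      have := (plAbv p).add_le (M - t) t
      rwa [sub_add_cancel] at this
    linarith
  · have hn : (Sum.inr φ : Pl k) ∉ T := fun hp => by
      obtain ⟨v, hv⟩ := hT _ hp
      cases hv
    have h := hM (Sum.inr φ) (Or.inr ⟨φ, rfl⟩)
    rw [if_neg hn, plAbv_inr] at h
    rw [plAbv_inr]
    change |φ (M - 2)| < 1 at h
    rw [map_sub, map_ofNat] at h
    have h1 := (abs_lt.mp h).1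
    rw [abs_of_pos (by linarith)]
    linarith

end scal

variable {k K D : Type} [Field k] [NumberField k] [Field K] [StarRing K]
  [DivisionRing D] [StarRing D] [Algebra k K] [Algebra k D] [Algebra K D] [IsScalarTower k K D]
  {d : kˣ} {s : K} {n N : ℕ}

theorem hst_of (hS : Setting k K D d s) (c : K) :
    star (algebraMap K D c) = algebraMap K D (star c) := hS.star_alg c

theorem hstk_of (hS : Setting k K D d s) (c : k) (x : D) : star (c • x) = c • star x := by
  have h := hS.star_smul (algebraMap k K c) x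
  rwa [(hS.fix _).mpr ⟨c, rfl⟩, algebraMap_smul, algebraMap_smul] at h

/-- **Symmetric elements close to `x x⋆` at the real places that do not split are in `Sy`.** -/
theorem sy_inf (hS : Setting k K D d s) (hn : Odd n) (hdeg : finrank K D = n ^ 2)
    (B : Basis (Fin N) k D) {x : D} (hx : x ≠ 0) :
    ∃ ε : ℝ, 0 < ε ∧ ∀ z : D, star z = z → z ≠ 0 →
      (∀ φ : k →+* ℝ, φ d < 0 → nm B (.inr φ) (z - x * star x) < ε) → Sy K z := by
  obtain ⟨ε, hε, h⟩ := sy_nf' hS hn hdeg B hx
  refine ⟨ε, hε, fun z hz hz0 hz1 => ?_⟩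
  obtain ⟨t, y, h2, h3, h4, h5⟩ := h z hz hz0 fun φ hφ => nearR_of_nm B φ (hz1 φ hφ)
  exact ⟨t, y, h2, h3, h4, h5⟩

/-- The same in the topology given by `T'`. -/
theorem sy_near (hS : Setting k K D d s) (hn : Odd n) (hdeg : finrank K D = n ^ 2)
    (B : Basis (Fin N) k D) (T' : Finset (Pl k)) [Nonempty T']
    (hT' : ∀ φ : k →+* ℝ, φ d < 0 → (Sum.inr φ : Pl k) ∈ T') {x : D} (hx : x ≠ 0) :
    ∀ᶠ z in @nhds D (topD B (av T')) (x * star x), star z = z → Sy K z := by
  obtain ⟨ε, hε, h⟩ := sy_inf hS hn hdeg B hx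
  letI := topD B (av T')
  haveI : T2Space D := t2 B (av T')
  have hx' : x * star x ≠ 0 := mul_ne_zero hx (star_ne_zero.mpr hx)
  have h0 : ∀ᶠ z in 𝓝 (x * star x), z ≠ 0 := continuousAt_id.eventually_ne hx'
  have h1 : ∀ᶠ z in 𝓝 (x * star x), ∀ p ∈ T', nm B p (z - x * star x) < ε :=
    ball_mem B T' hε
  filter_upwards [h0, h1] with z hz0 hz1 hz
  exact h z hz hz0 fun φ hφ => hz1 _ (hT' φ hφ)

/-- Adding a scalar which is small at the place `p` and large at the real places. -/
theorem sy_add (hS : Setting k K D d s) (hn : Odd n) (hdeg : finrank K D = n ^ 2)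
    (B : Basis (Fin N) k D) {p : Pl k} {M : k} (hM0 : M ≠ 0) (hM : plAbv p M < 1)
    (hM' : ∀ φ : k →+* ℝ, φ d < 0 → 1 < plAbv (Sum.inr φ) M) {z : D} (hz : Sy K (z + star z))
    (κ : K) : ∀ᶠ m : ℕ in atTop,
      Sy K (z * algebraMap K D (κ + algebraMap k K (M ^ m)) +
        star (z * algebraMap K D (κ + algebraMap k K (M ^ m)))) := by
  have hst := hst_of hS
  have hstk := hstk_of hS
  have hfix : ∀ c : k, star (algebraMap k K c) = algebraMap k K c := fun c =>
    (hS.fix _).mpr ⟨c, rfl⟩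
  obtain ⟨t, y, ht, ht0, hy, hty⟩ := hz
  have htD : algebraMap K D t ≠ 0 := (_root_.map_ne_zero _).mpr ht0
  obtain ⟨ε, hε, hsy⟩ := sy_inf hS hn hdeg B hy
  obtain ⟨w0, hw0⟩ : ∃ w0, w0 = z * algebraMap K D κ + star (z * algebraMap K D κ) := ⟨_, rfl⟩
  have hw0s : star w0 = w0 := by rw [hw0, star_add, star_star, add_comm]
  obtain ⟨w, hw⟩ : ∃ w, w = algebraMap K D t⁻¹ * w0 := ⟨_, rfl⟩
  have hws : star w = w := by
    rw [hw, star_mul, hw0s, hst, star_inv₀, ht, ← Algebra.commutes]
  have hyy : y * star y ≠ 0 := mul_ne_zero hy (star_ne_zero.mpr hy)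
  have hyys : star (y * star y) = y * star y := by rw [star_mul, star_star]
  -- the nonvanishing
  have h1 : ∀ᶠ m : ℕ in atTop, y * star y + (M ^ m)⁻¹ • w ≠ 0 := by
    rcases eq_or_ne w 0 with rfl | hw00
    · exact Eventually.of_forall fun m => by rw [smul_zero, add_zero]; exact hyy
    have h2 : Tendsto (fun m : ℕ => plAbv p M ^ m * nm B p (y * star y)) atTop (𝓝 0) := by
      have := (tendsto_pow_atTop_nhds_zero_of_lt_one (AbsoluteValue.nonneg (plAbv p) M)
        hM).mul_const (nm B p (y * star y))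
      rwa [zero_mul] at this
    filter_upwards [h2.eventually_lt_const (nm_pos B p hw00)] with m hm h0
    have h3 : w = -(M ^ m • (y * star y)) := by
      have h4 : M ^ m • (y * star y + (M ^ m)⁻¹ • w) = 0 := by rw [h0, smul_zero]
      rw [smul_add, smul_smul, mul_inv_cancel₀ (pow_ne_zero m hM0), one_smul] at h4
      exact (neg_eq_of_add_eq_zero_right h4).symm
    rw [h3, nm_neg, nm_smul, map_pow] at hm
    exact lt_irrefl _ hm
  -- the real places
  have h2 : ∀ᶠ m : ℕ in atTop, ∀ φ : k →+* ℝ, φ d < 0 →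
      nm B (.inr φ) ((M ^ m)⁻¹ • w) < ε := by
    refine eventually_all.mpr fun φ => ?_
    by_cases hφ : φ d < 0
    · have h3 : Tendsto (fun m : ℕ => ((plAbv (Sum.inr φ) M)⁻¹) ^ m * nm B (.inr φ) w) atTop
          (𝓝 0) := by
        have := (tendsto_pow_atTop_nhds_zero_of_lt_one
          (inv_nonneg.mpr (AbsoluteValue.nonneg (plAbv (Sum.inr φ)) M))
          (inv_lt_one_of_one_lt₀ (hM' φ hφ))).mul_const (nm B (.inr φ) w)
        rwa [zero_mul] at this
      filter_upwards [h3.eventually_lt_const hε] with m hm _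
      rwa [nm_smul, map_inv₀, map_pow, ← inv_pow]
    · exact Eventually.of_forall fun m h => absurd h hφ
  filter_upwards [h1, h2] with m hm1 hm2
  have hs0 : star (y * star y + (M ^ m)⁻¹ • w) = y * star y + (M ^ m)⁻¹ • w := by
    rw [star_add, hyys, hstk, hws]
  have h3 := hsy _ hs0 hm1 fun φ hφ => by rw [add_sub_cancel_left]; exact hm2 φ hφ
  have hL : algebraMap k K (M ^ m) ≠ 0 :=
    (_root_.map_ne_zero _).mpr (pow_ne_zero m hM0)
  have h4 := Sy.smul (t := t * algebraMap k K (M ^ m)) (by rw [star_mul', ht, hfix])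
    (mul_ne_zero ht0 hL) h3
  have h5 : algebraMap K D (t * algebraMap k K (M ^ m)) * (y * star y + (M ^ m)⁻¹ • w) =
      z * algebraMap K D (κ + algebraMap k K (M ^ m)) +
        star (z * algebraMap K D (κ + algebraMap k K (M ^ m))) := by
    have e1 : algebraMap K D (algebraMap k K (M ^ m)) = algebraMap k D (M ^ m) :=
      (IsScalarTower.algebraMap_apply k K D _).symm
    have e2 : algebraMap K D (t * algebraMap k K (M ^ m)) * ((M ^ m)⁻¹ • w) = w0 := by
      have e5 : algebraMap k D (M ^ m) * ((M ^ m)⁻¹ • w) = w := by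
        rw [← Algebra.smul_def, smul_smul, mul_inv_cancel₀ (pow_ne_zero m hM0), one_smul]
      rw [map_mul, e1, mul_assoc, e5, hw, map_inv₀, mul_inv_cancel_left₀ htD]
    have e3 : algebraMap K D (t * algebraMap k K (M ^ m)) * (y * star y) =
        M ^ m • (z + star z) := by
      rw [hty, mul_comm t, map_mul, e1, mul_assoc, ← Algebra.smul_def]
    have e4 : z * algebraMap K D (algebraMap k K (M ^ m)) = M ^ m • z := by
      rw [e1, ← Algebra.commutes, ← Algebra.smul_def]
    rw [mul_add, e2, e3, map_add, mul_add, star_add, e4, hstk, hw0, smul_add]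
    abel
  rwa [h5] at h4

/-- **(d1)**: two elements of the domain and one central `κ'` close to `κ` at `T`. -/
theorem d1_nf (hS : Setting k K D d s) (hn : Odd n) (hdeg : finrank K D = n ^ 2)
    (B : Basis (Fin N) k D) (T : Finset (Pl k)) [Nonempty T]
    (hT : ∀ p ∈ T, ∃ v : HeightOneSpectrum (𝓞 k), p = Sum.inl v) (κ : K) {z1 z2 : D}
    (h1 : Sy K (z1 + star z1)) (h2 : Sy K (z2 + star z2)) {V : Set D}
    (hV : V ∈ @nhds D (topD B (av T)) (algebraMap K D κ)) :
    ∃ κ' : K, algebraMap K D κ' ∈ V ∧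
      Sy K (z1 * algebraMap K D κ' + star (z1 * algebraMap K D κ')) ∧
      Sy K (z2 * algebraMap K D κ' + star (z2 * algebraMap K D κ')) := by
  obtain ⟨M, hM0, hM, hM'⟩ := exists_big T hT
  obtain ⟨p⟩ := id ‹Nonempty T›
  obtain ⟨ε, hε, hVε⟩ := (mem_nhds_iff_nm B T).mp hV
  have h3 : ∀ᶠ m : ℕ in atTop, ∀ q : T, nm B q.1 (algebraMap k D (M ^ m)) < ε := by
    refine eventually_all.mpr fun q => ?_
    have h4 : Tendsto (fun m : ℕ => plAbv q.1 M ^ m * nm B q.1 1) atTop (𝓝 0) := by
      have := (tendsto_pow_atTop_nhds_zero_of_lt_one (AbsoluteValue.nonneg (plAbv q.1) M)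
        (hM q.1 q.2)).mul_const (nm B q.1 (1 : D))
      rwa [zero_mul] at this
    filter_upwards [h4.eventually_lt_const hε] with m hm
    rwa [Algebra.algebraMap_eq_smul_one, nm_smul, map_pow]
  obtain ⟨m, ⟨a1, a2⟩, a3⟩ := (((sy_add hS hn hdeg B hM0 (hM p.1 p.2) (fun φ _ => hM' φ) h1 κ).and
    (sy_add hS hn hdeg B hM0 (hM p.1 p.2) (fun φ _ => hM' φ) h2 κ)).and h3).exists
  refine ⟨κ + algebraMap k K (M ^ m), hVε _ fun q hq => ?_, a1, a2⟩
  rw [map_add, add_sub_cancel_left, ← IsScalarTower.algebraMap_apply]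
  exact a3 ⟨q, hq⟩

/-- **The domain over number fields**, in the form consumed by `H182/Odd/Psi`. -/
theorem dom_nf (hS : Setting k K D d s) (hn : Odd n) (hdeg : finrank K D = n ^ 2)
    (B : Basis (Fin N) k D) (T T' : Finset (Pl k)) [Nonempty T] [Nonempty T']
    (hT' : ∀ φ : k →+* ℝ, φ d < 0 → (Sum.inr φ : Pl k) ∈ T') {κ : K} (hκ : star κ ≠ κ) :
    ∀ V ∈ @nhds D (topD B (av T)) (algebraMap K D (κ - star κ)⁻¹), ∃ α : K,
      algebraMap K D α ∈ V ∧ ∀ᶠ g in @nhds D (topD B (av T')) 1,
      Sy K (algebraMap K D α * g + star (algebraMap K D α * g)) ∧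
      Sy K (algebraMap K D α * g * algebraMap K D κ +
        star (algebraMap K D α * g * algebraMap K D κ)) := by
  have hst := hst_of hS
  have hstk := hstk_of hS
  have hl : ∀ γ : K, γ + star γ ≠ 0 → ∀ᶠ g in @nhds D (topD B (av T')) 1,
      Sy K (algebraMap K D γ * g + star (algebraMap K D γ * g)) := by
    intro γ hγ
    letI := topD B (av T')
    haveI : IsTopologicalDivisionRing D := inst_D B T'
    haveI : ContinuousStar D := inst_star B T' hstk
    have h1 := sy_near hS hn hdeg B T' hT' (one_ne_zero (α := D))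
    rw [one_mul, star_one] at h1
    exact sy_lin hst h1 hγ
  letI := topD B (av T)
  haveI : IsTopologicalDivisionRing D := inst_D B T
  haveI : T2Space D := t2 B (av T)
  have hnd : Nd K D := by
    intro V hV
    obtain ⟨c, hc0, hc⟩ := inst_small B T V hV
    refine ⟨algebraMap k K c, (hS.fix _).mpr ⟨c, rfl⟩,
      (map_ne_zero_iff _ (algebraMap k K).injective).mpr hc0, ?_⟩
    rw [← IsScalarTower.algebraMap_apply]
    exact hc
  exact dom hnd hκ hl

end Vale.Agent.P011.H616
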