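import Vale.Agent.P011.H616.Odd.DomNF
import Vale.Agent.P011.H627.Odd.GlueP

/-!
# Number fields: the module `ModDomNF`
-/

open Filter Topology Module NumberField IsDedekindDomain Polynomial

set_option linter.style.haveILetI false
set_option linter.unusedSectionVars false

namespace Vale.Agent.P011.H616

open Vale.Agent.P011.Arith Vale.Agent.P011.Even Vale.Agent.P011.H775.Top
  Vale.Agent.P011.H627.Odd

section

variable {k K : Type} [Field k] [NumberField k] [Field K] [StarRing K] [Algebra k K]

/-- A central element `κ` such that `κ / κ⋆` is not a root of unity of small order. -/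
theorem exists_kappa {s : K} (h2 : CharZero K) (hs0 : s ≠ 0) (hs : star s = -s) (n : ℕ) :
    ∃ κ : K, star κ ≠ κ ∧ ∀ j, 1 ≤ j → j ≤ n → κ ^ j ≠ star κ ^ j := by
  classical
  have hne : ∀ M : ℕ, (M : K) - s ≠ 0 := by
    intro M h
    have h1 : s = (M : K) := (sub_eq_zero.mp h).symm
    have h3 : star s = s := by rw [h1, star_natCast]
    rw [hs] at h3
    exact hs0 (by
      have h4 : (2 : K) * s = 0 := by linear_combination -h3
      rcases mul_eq_zero.mp h4 with h5 | h5
      · exact absurd h5 two_ne_zero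
      · exact h5)
  have hinj : Function.Injective fun M : ℕ => ((M : K) + s) / ((M : K) - s) := by
    intro M M' h
    have h1 : ((M : K) + s) / ((M : K) - s) = ((M' : K) + s) / ((M' : K) - s) := h
    rw [div_eq_div_iff (hne M) (hne M')] at h1
    have h3 : (2 * s) * ((M' : K) - M) = 0 := by linear_combination h1
    rcases mul_eq_zero.mp h3 with h4 | h4
    · rcases mul_eq_zero.mp h4 with h5 | h5
      · exact absurd h5 two_ne_zero
      · exact absurd h5 hs0
    · exact_mod_cast (sub_eq_zero.mp h4).symm
  obtain ⟨x, ⟨M, rfl⟩, hx⟩ := (Set.infinite_range_of_injective hinj).exists_notMem_finset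
    ((Finset.Icc 1 n).biUnion fun j => (nthRoots j (1 : K)).toFinset)
  have hst : star ((M : K) + s) = (M : K) - s := by
    rw [star_add, star_natCast, hs, sub_eq_add_neg]
  refine ⟨(M : K) + s, ?_, fun j hj hjn h => hx ?_⟩
  · rw [hst]
    intro h
    have h4 : (2 : K) * s = 0 := by linear_combination -h
    rcases mul_eq_zero.mp h4 with h5 | h5
    · exact absurd h5 two_ne_zero
    · exact hs0 h5
  · rw [Finset.mem_biUnion]
    refine ⟨j, Finset.mem_Icc.mpr ⟨hj, hjn⟩, ?_⟩
    rw [Multiset.mem_toFinset, mem_nthRoots (by omega)]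
    rw [hst] at h
    rw [div_pow, h, div_self (pow_ne_zero j (hne M))]

end

/-- **The domains over number fields.** -/
theorem modDom_nf {n : ℕ} (hn : Odd n) : ModDomNF n := by
  intro k K D _ _ _ _ _ _ _ _ _ _ _ d s hS hdeg M B T _ hT
  have h0 : CharZero K := charZero_of_injective_algebraMap (algebraMap k K).injective
  obtain ⟨κ, hκ, hκj⟩ := exists_kappa h0 hS.s_ne hS.star_s n
  refine ⟨κ, hκ, hκj, fun V hV => ?_⟩
  exact dom_nf hS hn hdeg B T (T0 d T) (fun φ hφ => mem_T0.mpr (Or.inr ⟨φ, hφ, rfl⟩)) hκ V hV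

end Vale.Agent.P011.H616
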